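import Vale.Agent.Lib.P113.Main

namespace Vale.Agent.Results.P113.HaltingUniformInViscosity

open Vale.Agent.Lib.P113

/-- Question Q1 of P113 as posed, answered positively in a uniform form: one point, one open
set and one force compiler serve every real viscosity `ν > 0`, and the forces vanish
after time `T0`. -/
theorem result :
    ∃ (a : Fin 3 → ℝ) (O : Set (Fin 3 → ℝ)) (T0 : ℝ)
      (force : Machine → List ℕ → ℝ → (Fin 3 → ℝ) → Fin 3 → ℝ)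
      (compile : Machine → List ℕ → Nat.Partrec.Code),
      IsOpen O ∧ (∀ (x : Fin 3 → ℝ) (k : Fin 3 → ℤ), (x + fun i => (k i : ℝ)) ∈ O ↔ x ∈ O) ∧
      0 ≤ T0 ∧ IsForceCompiler T0 force compile ∧
      (∀ (M : Machine) (w : List ℕ) (t : ℝ) (x : Fin 3 → ℝ), T0 ≤ t → force M w t x = 0) ∧
      ∀ ν : ℝ, 0 < ν → ∀ (M : Machine) (w : List ℕ),
        ∃ (u : ℝ → (Fin 3 → ℝ) → Fin 3 → ℝ) (p : ℝ → (Fin 3 → ℝ) → ℝ) (X : ℝ → Fin 3 → ℝ),
          ContDiff ℝ (⊤ : ℕ∞) (Function.uncurry u) ∧ ContDiff ℝ (⊤ : ℕ∞) (Function.uncurry p) ∧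
          (∀ T : ℝ, 0 < T → IsClassicalSolution ν (force M w) T u p ∧
            ∀ (v : ℝ → (Fin 3 → ℝ) → Fin 3 → ℝ) (π : ℝ → (Fin 3 → ℝ) → ℝ),
              IsClassicalSolution ν (force M w) T v π →
                ∀ t ∈ Set.Icc (0 : ℝ) T, ∀ x : Fin 3 → ℝ, v t x = u t x ∧ π t x = p t x) ∧
          IsTrajectory u a X ∧
          (∀ Y : ℝ → Fin 3 → ℝ, IsTrajectory u a Y → ∀ t : ℝ, 0 ≤ t → Y t = X t) ∧
          ((∃ t : ℝ, 0 ≤ t ∧ X t ∈ O) ↔ Halts M w) :=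
  main_theorem_uniform

end Vale.Agent.Results.P113.HaltingUniformInViscosity
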